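import Vale.Agent.Lib.P062.Assemble
import Vale.Agent.Lib.P062.Book
import Vale.Agent.Lib.P062.Cert.B2

/-!
# Maker wins the Snaky game unless Breaker follows one line of play (P062)

Maker opens at `(0, 0)` and follows a book for its first 2 moves; the checked proof trees of
`Cert` treat all replies of Breaker to the book moves except the lines of `badList2`.
-/

namespace Vale.Agent.Lib.P062

/-- The excused lines of play: the lists of the first 2 replies of Breaker (newest first) that
the book does not treat. -/
def badList2 : List (List (ℤ × ℤ)) :=
  [[(-1, 1), (1, 0)],
    [(-1, -1), (1, 0)],
    [(1, 1), (-1, 0)],
    [(1, -1), (-1, 0)],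
    [(1, -1), (0, 1)],
    [(-1, -1), (0, 1)],
    [(1, 1), (0, -1)],
    [(-1, 1), (0, -1)]]

theorem badList2_length : ∀ l ∈ badList2, l.length = 2 := by
  decide

theorem badList2_sym1 : ∀ l ∈ badList2,
    l.map (gridSym (symA 1) (symB 1) (symSw 1) (0, 0)) ∈ badList2 := by
  decide

theorem badList2_sym4 : ∀ l ∈ badList2,
    l.map (gridSym (symA 4) (symB 4) (symSw 4) (0, 0)) ∈ badList2 := by
  decide

theorem badList2_sym6 : ∀ l ∈ badList2,
    l.map (gridSym (symA 6) (symB 6) (symSw 6) (0, 0)) ∈ badList2 := by
  decide

/-- The listed replies (codes) to the book move (-1, 0) of Maker after the replies [(1, 0)] of Breaker,
with the zones and the numbers of moves of their proof trees. -/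
def reps2_1 : List (ℕ × ℕ × ℕ) :=
  [(334, 3501046832751442750769575987466466508603409328848322217769891774972216400443438927478533026192934285867026345646873634086845714468718922325289441404865143111680, 14),
    (361, 15242913184045468619292176205545215654149759745631222770923096853503957281967008424222645042977398482541345923000092889754987063225605645402112, 14),
    (362, 340705662801999220981945768453319100103383407436184565558279095584423966576301687780311250255243799910322234960215443477498688782204928, 14),
    (389, 1636695325288149256387985667700410287285342809158404596842686440715601589246956174475800508830939153535564116945058017764119346545717401533094249365504, 14),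
    (391, 13729596087462167163211233610348846110112460671618138612044348579624652389896186778483184587430493530496399797540908947485738289078000898988028344216246550528, 15),
    (392, 13729598542505147664513869166953695576094556970275248983252007211564270397521367422830843718073726123505738704345120483629162884484112027967323908833399537664, 14),
    (416, 409173873240047909395009224652568104405609834553074061562432339118960963213573364989620833828913764388567810179215144525992414233917861621425825120256, 15),
    (417, 1022116966490670025008937589864708881436780662457663230996149292518356495449560762192347012147479612219511814397164897590995951336554496, 14),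
    (418, 68647979005202348831136103041822581856545416176294747553540367802436248253281564397727633281352711133358245493297137685726091658958013982556518547587701145600, 14),
    (443, 19815787025690555297361205107791871657200408686408828599296083399817043128769086799042125833106842119174595369461065918518449585788465436426240, 13),
    (445, 7621456501167899166911972460190282773722089356614453347552446302363338369566079261935671283585448350644105236294602422724840025887085061734400, 14)]

theorem reps2_1_won : RepsWon 56365021986571997469347534322944088657016381173799676896974983316773016602750602643128775961234448872766439424 75153362648762663292463379097258784876021841565066235862633311089030688803667470190838367948312598497021919232 15 reps2_1 :=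
  RepsWon.cons (by decide +kernel) Cert.B2.won334 (by decide)
    (RepsWon.cons (by decide +kernel) Cert.B2.won361 (by decide)
    (RepsWon.cons (by decide +kernel) Cert.B2.won362 (by decide)
    (RepsWon.cons (by decide +kernel) Cert.B2.won389 (by decide)
    (RepsWon.cons (by decide +kernel) Cert.B2.won391 (by decide)
    (RepsWon.cons (by decide +kernel) Cert.B2.won392 (by decide)
    (RepsWon.cons (by decide +kernel) Cert.B2.won416 (by decide)
    (RepsWon.cons (by decide +kernel) Cert.B2.won417 (by decide)
    (RepsWon.cons (by decide +kernel) Cert.B2.won418 (by decide)
    (RepsWon.cons (by decide +kernel) Cert.B2.won443 (by decide)
    (RepsWon.cons (by decide +kernel) Cert.B2.won445 (by decide)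
    (RepsWon.nil)))))))))))

theorem node2_1_ok : nodeOk 56365021986571997469347534322944088657016381173799676896974983316773016602750602643128775961234448872766439424 75153362648762663292463379097258784876021841565066235862633311089030688803667470190838367948312598497021919232 10670039342400381941223147303298573742327704263871338452242086378461155587090532462389601650731488319722401330965148753200259904963506838962176 reps2_1 [0, 2] [390, 336] = true := by
  decide +kernel

/-- The book node after the replies [(1, 0)] of Breaker: Maker plays (-1, 0). -/
theorem book2_1 : WonU (fun l => l ∈ badList2) 37576681324381331646231689548629392438010920782533117931316655544515344401833735095419183974156299248510959616 75153362648762663292463379097258784876021841565066235862633311089030688803667470190838367948312598497021919232 [(1, 0)] 16 :=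
  bookNode' (m := 363) (MA := 56365021986571997469347534322944088657016381173799676896974983316773016602750602643128775961234448872766439424) (z0 := 10670039342400381941223147303298573742327704263871338452242086378461155587090532462389601650731488319722401330965148753200259904963506838962176) (n0 := 13) (N := 15) (reps := reps2_1)
    (syms := [0, 2]) (holes := [390, 336])
    (by decide +kernel) (by decide +kernel) (by decide +kernel) Cert.B2.wonP (by decide)
    reps2_1_won node2_1_ok (by
      intro c hc hnb
      simp only [List.mem_cons, List.not_mem_nil, or_false] at hc
      rcases hc with rfl | rfl
      · exact absurd (show cellOf 390 :: [(1, 0)] ∈ badList2 by decide) hnb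
      · exact absurd (show cellOf 336 :: [(1, 0)] ∈ badList2 by decide) hnb
      )

theorem node2_0_ok : nodeOk (1 <<< 364) 0 nullZone repList [0, 1, 2, 3, 4, 5, 6, 7] [365, 363, 391, 337] = true := by
  decide +kernel

/-- The book node after the replies [] of Breaker: Maker plays (0, 0). -/
theorem book2_0 : WonU (fun l => l ∈ badList2) 0 0 [] 17 :=
  bookNode' (m := 364) (MA := (1 <<< 364)) (z0 := nullZone) (n0 := 15) (N := 16) (reps := repList)
    (syms := [0, 1, 2, 3, 4, 5, 6, 7]) (holes := [365, 363, 391, 337])
    (by decide +kernel) (by decide +kernel) (by decide +kernel) nullZone_won (by decide)
    (RepsWon.of_forall (fun r hr => ⟨by rw [Nat.zero_or]; exact (repList_won r hr).1,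
      le_trans (repList_won r hr).2 (by decide)⟩)) node2_0_ok (by
      intro c hc hnb
      simp only [List.mem_cons, List.not_mem_nil, or_false] at hc
      rcases hc with rfl | rfl | rfl | rfl
      · exact ((book2_1).mono_n (by decide)).congr (by decide +kernel) (by decide +kernel)
          (by decide)
      · exact (((book2_1).sym 1 (by decide) (by decide +kernel) (by decide +kernel)
          badList2_sym1).mono_n (by decide)).congr (by decide +kernel) (by decide +kernel)
          (by decide)
      · exact (((book2_1).sym 4 (by decide) (by decide +kernel) (by decide +kernel)
          badList2_sym4).mono_n (by decide)).congr (by decide +kernel) (by decide +kernel)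
          (by decide)
      · exact (((book2_1).sym 6 (by decide) (by decide +kernel) (by decide +kernel)
          badList2_sym6).mono_n (by decide)).congr (by decide +kernel) (by decide +kernel)
          (by decide)
      )

/-- Maker has a strategy that wins the Snaky game in the plane within 17 moves against every
legal Breaker strategy whose first 2 replies do not form one of the excused lines. -/
theorem makerWinsUnless_line2 :
    MakerWinsUnless 17 (Set.univ : Set (ℤ × ℤ)) {A | IsSnakyCopy A} 2 {l | l ∈ badList2} :=
  makerWinsUnless_of_WonU (fun l hl => badList2_length l hl) book2_0

end Vale.Agent.Lib.P062
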